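import Mathlib
import Vale.Agent.P015.Main

/-
P015 hand-in: Gaussian prime paths with bounded steps cannot follow lines, are uniformly
tortuous, and long ones are rare.
-/

open ComplexConjugate

theorem Vale.Agent.Results.P015.NoPathNearLines.result : ∀ D : ℝ, 0 < D →
    (∃ c : ℝ, 0 < c ∧ ∀ z : ℕ → GaussianInt, Function.Injective z → (∀ n, Prime (z n)) →
      (∀ n, ‖GaussianInt.toComplex (z (n + 1)) - GaussianInt.toComplex (z n)‖ ≤ D) →
        ∀ a v : ℂ, ‖v‖ = 1 → ∀ N : ℕ, ∃ n, N ≤ n ∧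
          Real.exp (c * (Real.log (‖GaussianInt.toComplex (z n)‖ + 16) /
              Real.log (Real.log (‖GaussianInt.toComplex (z n)‖ + 16))))
            < |((GaussianInt.toComplex (z n) - a) * conj v).im|) ∧
    (∃ c R0 : ℝ, 0 < c ∧ 16 ≤ R0 ∧ ∀ R, R0 ≤ R → ∀ a v : ℂ, ‖v‖ = 1 →
      ∀ (z : ℕ → GaussianInt) (m : ℕ), (∀ i ≤ m, Prime (z i)) →
        (∀ i < m, ‖GaussianInt.toComplex (z (i + 1)) - GaussianInt.toComplex (z i)‖ ≤ D) →
        (∀ i ≤ m, |((GaussianInt.toComplex (z i) - a) * conj v).im|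
          ≤ Real.exp (c * (Real.log R / Real.log (Real.log R)))) →
        ‖GaussianInt.toComplex (z m) - GaussianInt.toComplex (z 0)‖ < R) ∧
    (∃ δ L0 : ℝ, 0 < δ ∧ ∀ (z : ℕ → GaussianInt) (m : ℕ), (∀ i ≤ m, Prime (z i)) →
      (∀ i < m, ‖GaussianInt.toComplex (z (i + 1)) - GaussianInt.toComplex (z i)‖ ≤ D) →
      L0 ≤ ‖GaussianInt.toComplex (z m) - GaussianInt.toComplex (z 0)‖ →
      (1 + δ) * ‖GaussianInt.toComplex (z m) - GaussianInt.toComplex (z 0)‖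
        ≤ ∑ i ∈ Finset.range m,
            ‖GaussianInt.toComplex (z (i + 1)) - GaussianInt.toComplex (z i)‖) ∧
    (∃ c X0 : ℝ, 0 < c ∧ ∀ X : ℕ, X0 ≤ (X : ℝ) →
      ({z : GaussianInt | |z.re| ≤ (X : ℤ) ∧ |z.im| ≤ (X : ℤ) ∧
        ∃ y : ℕ → GaussianInt, y 0 = z ∧
          (∀ i : ℕ, (i : ℝ) ≤ c * (Real.log X / Real.log (Real.log X)) → Prime (y i)) ∧
          (∀ i j : ℕ, (i : ℝ) ≤ c * (Real.log X / Real.log (Real.log X)) →
            (j : ℝ) ≤ c * (Real.log X / Real.log (Real.log X)) → y i = y j → i = j) ∧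
          ∀ i : ℕ, ((i + 1 : ℕ) : ℝ) ≤ c * (Real.log X / Real.log (Real.log X)) →
            ‖GaussianInt.toComplex (y (i + 1)) - GaussianInt.toComplex (y i)‖ ≤ D}.ncard : ℝ)
        ≤ (X : ℝ) ^ 2 * Real.exp (-(c * (Real.log X / Real.log (Real.log X))))) := by
  intro D hD
  refine ⟨Vale.Agent.P015.strip_infinite D hD, ?_, ?_, Vale.Agent.P015.long_path_count D hD⟩
  · obtain ⟨c, R0, hc, hR0, h⟩ := Vale.Agent.P015.strip_finite D hD
    exact ⟨c, R0, hc, hR0, fun R hR a v hv z m h1 h2 h3 => h R hR a v hv z m ⟨h1, h2⟩ h3⟩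
  · obtain ⟨δ, L0, hδ, h⟩ := Vale.Agent.P015.tortuosity D hD
    exact ⟨δ, L0, hδ, fun z m h1 h2 h3 => h z m ⟨h1, h2⟩ h3⟩
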